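import Vale.Agent.P011.E6I.H369.Prj

/-!
The commutant of a matrix of degree three with nonzero discriminant, cyclic vectors, and the
symmetric matrices attached to it.
-/

namespace Vale.Agent.P011.E6I

open Matrix Polynomial

section alg

variable {K : Type} [Field K]

/-- Eigenvectors over an algebraically closed field. -/
theorem exists_eig [CharZero K] [IsAlgClosed K] {z : Matrix (Fin 3) (Fin 3) K}
    (h0 : z.trace = 0) (hd : dz z ≠ 0) : ∃ (t : Fin 3 → K) (h : Matrix (Fin 3) (Fin 3) K),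
      Function.Injective t ∧ h.det ≠ 0 ∧ z * h = h * diagonal t := by
  have hroot : ∀ p q : K, ∃ t : K, t ^ 3 + p * t + q = 0 := by
    intro p q
    obtain ⟨t, ht⟩ := IsAlgClosed.exists_root (X ^ 3 + C p * X + C q : K[X]) (by
      have : (X ^ 3 + C p * X + C q : K[X]).degree = 3 := by compute_degree!
      rw [this]; decide)
    exact ⟨t, by simpa [IsRoot] using ht⟩
  have hroot2 : ∀ p q : K, ∃ t : K, t ^ 2 + p * t + q = 0 := by
    intro p q
    obtain ⟨t, ht⟩ := IsAlgClosed.exists_root (X ^ 2 + C p * X + C q : K[X]) (by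
      have : (X ^ 2 + C p * X + C q : K[X]).degree = 2 := by compute_degree!
      rw [this]; decide)
    exact ⟨t, by simpa [IsRoot] using ht⟩
  obtain ⟨t0, ht0⟩ := hroot (pz z) (qz z)
  obtain ⟨t1, ht1⟩ := hroot2 t0 (pz z + t0 ^ 2)
  have hp : pz z = t0 * t1 + (t0 + t1) * (-t0 - t1) := by linear_combination ht1
  have hq : qz z = -(t0 * t1 * (-t0 - t1)) := by
    linear_combination ht0 - t0 * ht1
  have hdd : dz z = ((t0 - t1) * (t1 - (-t0 - t1)) * (t0 - (-t0 - t1))) ^ 2 := by
    rw [dz, hp, hq]; ring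
  have hne : (t0 - t1) * (t1 - (-t0 - t1)) * (t0 - (-t0 - t1)) ≠ 0 := by
    intro h; rw [hdd, h] at hd; exact hd (by ring)
  have h01 : t0 - t1 ≠ 0 := fun h => hne (by rw [h]; ring)
  have h12 : t1 - (-t0 - t1) ≠ 0 := fun h => hne (by rw [h]; ring)
  have h02 : t0 - (-t0 - t1) ≠ 0 := fun h => hne (by rw [h]; ring)
  have hz2 : z 2 2 = -z 0 0 - z 1 1 := by
    rw [Matrix.trace_fin_three] at h0
    linear_combination h0
  have hchar : ∀ t : K, t ^ 3 + pz z * t + qz z = 0 →
      (z - t • (1 : Matrix (Fin 3) (Fin 3) K)).det = 0 := by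
    intro t ht
    have : (z - t • (1 : Matrix (Fin 3) (Fin 3) K)).det = -(t ^ 3 + pz z * t + qz z) := by
      simp [pz, qz, Matrix.mul_apply, Fin.sum_univ_three, Matrix.trace_fin_three,
        Matrix.det_fin_three, hz2]
      ring
    rw [this, ht, neg_zero]
  have hvec : ∀ t : K, t ^ 3 + pz z * t + qz z = 0 → ∃ v : Fin 3 → K, v ≠ 0 ∧
      z.mulVec v = t • v := by
    intro t ht
    obtain ⟨v, hv, h⟩ := Matrix.exists_mulVec_eq_zero_iff.2 (hchar t ht)
    refine ⟨v, hv, ?_⟩
    rw [Matrix.sub_mulVec, Matrix.smul_mulVec, Matrix.one_mulVec, sub_eq_zero] at h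
    exact h
  obtain ⟨v0, hv0, e0⟩ := hvec t0 ht0
  obtain ⟨v1, hv1, e1⟩ := hvec t1 (by rw [hp, hq]; ring)
  obtain ⟨v2, hv2, e2⟩ := hvec (-t0 - t1) (by rw [hp, hq]; ring)
  let t : Fin 3 → K := ![t0, t1, -t0 - t1]
  let h : Matrix (Fin 3) (Fin 3) K := (Matrix.of ![v0, v1, v2])ᵀ
  have hzh : z * h = h * diagonal t := by
    ext i j
    rw [Matrix.mul_diagonal]
    fin_cases j
    · have := congrFun e0 i
      simpa [h, t, Matrix.mul_apply, Matrix.mulVec, dotProduct, mul_comm] using this
    · have := congrFun e1 i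
      simpa [h, t, Matrix.mul_apply, Matrix.mulVec, dotProduct, mul_comm] using this
    · have := congrFun e2 i
      simpa [h, t, Matrix.mul_apply, Matrix.mulVec, dotProduct, mul_comm] using this
  refine ⟨t, h, ?_, ?_, hzh⟩
  · intro i j hij
    fin_cases i <;> fin_cases j <;> first | rfl | (exfalso; simp [t] at hij)
    · exact h01 (by linear_combination hij)
    · exact h02 (by linear_combination hij)
    · exact h01 (by linear_combination -hij)
    · exact h12 (by linear_combination hij)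
    · exact h02 (by linear_combination -hij)
    · exact h12 (by linear_combination -hij)
  · intro hdet
    obtain ⟨s, hs, hs0⟩ := Matrix.exists_mulVec_eq_zero_iff.2 hdet
    have k1 : s 0 • v0 + s 1 • v1 + s 2 • v2 = 0 := by
      rw [← hs0]
      ext i
      simp [h, Matrix.mulVec, dotProduct, Fin.sum_univ_three, mul_comm]
    have k2 : (s 0 * t0) • v0 + (s 1 * t1) • v1 + (s 2 * (-t0 - t1)) • v2 = 0 := by
      have := congrArg z.mulVec k1
      rw [Matrix.mulVec_add, Matrix.mulVec_add, Matrix.mulVec_smul, Matrix.mulVec_smul,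
        Matrix.mulVec_smul, e0, e1, e2, Matrix.mulVec_zero] at this
      rw [← this]
      module
    have k3 : (s 0 * t0 * t0) • v0 + (s 1 * t1 * t1) • v1 +
        (s 2 * (-t0 - t1) * (-t0 - t1)) • v2 = 0 := by
      have := congrArg z.mulVec k2
      rw [Matrix.mulVec_add, Matrix.mulVec_add, Matrix.mulVec_smul, Matrix.mulVec_smul,
        Matrix.mulVec_smul, e0, e1, e2, Matrix.mulVec_zero] at this
      rw [← this]
      module
    have l0 : (s 0 * ((t0 - t1) * (t0 - (-t0 - t1)))) • v0 = 0 := by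
      linear_combination (norm := module) k3 - (t1 + (-t0 - t1)) • k2 + (t1 * (-t0 - t1)) • k1
    have l1 : (s 1 * ((t0 - t1) * (t1 - (-t0 - t1)))) • v1 = 0 := by
      linear_combination (norm := module) -k3 + (t0 + (-t0 - t1)) • k2 - (t0 * (-t0 - t1)) • k1
    have l2 : (s 2 * ((t0 - (-t0 - t1)) * (t1 - (-t0 - t1)))) • v2 = 0 := by
      linear_combination (norm := module) k3 - (t0 + t1) • k2 + (t0 * t1) • k1
    have m0 : s 0 = 0 := by
      rcases smul_eq_zero.1 l0 with h | h
      · rcases mul_eq_zero.1 h with h | h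
        · exact h
        · exact absurd h (mul_ne_zero h01 h02)
      · exact absurd h hv0
    have m1 : s 1 = 0 := by
      rcases smul_eq_zero.1 l1 with h | h
      · rcases mul_eq_zero.1 h with h | h
        · exact h
        · exact absurd h (mul_ne_zero h01 h12)
      · exact absurd h hv1
    have m2 : s 2 = 0 := by
      rcases smul_eq_zero.1 l2 with h | h
      · rcases mul_eq_zero.1 h with h | h
        · exact h
        · exact absurd h (mul_ne_zero h02 h12)
      · exact absurd h hv2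
    exact hs (by ext i; fin_cases i <;> simp [m0, m1, m2])

/-- A matrix which commutes with `z` and is orthogonal to the powers of `z` is zero. -/
theorem eq_zero_of_trace' [CharZero K] [IsAlgClosed K] {z w : Matrix (Fin 3) (Fin 3) K}
    (h0 : z.trace = 0) (hd : dz z ≠ 0) (hw : w * z = z * w) (w0 : w.trace = 0)
    (w1 : (w * z).trace = 0) (w2 : (w * (z * z)).trace = 0) : w = 0 := by
  obtain ⟨t, h, hinj, hdet, hzh⟩ := exists_eig h0 hd
  have hu : IsUnit h.det := isUnit_iff_ne_zero.2 hdet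
  have hz : h⁻¹ * z * h = diagonal t := by
    rw [Matrix.mul_assoc, hzh, ← Matrix.mul_assoc, Matrix.nonsing_inv_mul _ hu, Matrix.one_mul]
  set v := h⁻¹ * w * h with hv
  have key : ∀ x y : Matrix (Fin 3) (Fin 3) K,
      (h⁻¹ * x * h) * (h⁻¹ * y * h) = h⁻¹ * (x * y) * h := by
    intro x y
    rw [Matrix.mul_assoc (h⁻¹ * x), ← Matrix.mul_assoc h, ← Matrix.mul_assoc h,
      Matrix.mul_nonsing_inv _ hu, Matrix.one_mul, ← Matrix.mul_assoc, ← Matrix.mul_assoc]
  have htr : ∀ x : Matrix (Fin 3) (Fin 3) K, (h⁻¹ * x * h).trace = x.trace := by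
    intro x
    rw [Matrix.trace_mul_comm, ← Matrix.mul_assoc, Matrix.mul_nonsing_inv _ hu, Matrix.one_mul]
  have hcomm : v * diagonal t = diagonal t * v := by
    rw [← hz, hv, key, key, hw]
  have hoff : ∀ i j, i ≠ j → v i j = 0 := by
    intro i j hij
    have h1 := congrFun (congrFun hcomm i) j
    rw [Matrix.mul_diagonal, Matrix.diagonal_mul] at h1
    have h2 : (t j - t i) * v i j = 0 := by linear_combination h1
    rcases mul_eq_zero.1 h2 with h3 | h3
    · exact absurd (hinj (sub_eq_zero.1 h3)).symm hij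
    · exact h3
  have e0 : v 0 0 + v 1 1 + v 2 2 = 0 := by
    rw [← Matrix.trace_fin_three, hv, htr, w0]
  have e1 : v 0 0 * t 0 + v 1 1 * t 1 + v 2 2 * t 2 = 0 := by
    rw [← w1, ← htr (w * z), ← key, ← hv, hz, Matrix.trace_fin_three, Matrix.mul_diagonal,
      Matrix.mul_diagonal, Matrix.mul_diagonal]
  have e2 : v 0 0 * t 0 * t 0 + v 1 1 * t 1 * t 1 + v 2 2 * t 2 * t 2 = 0 := by
    rw [← w2, ← htr (w * (z * z)), ← key w (z * z), ← key z z, ← hv, hz, ← Matrix.mul_assoc v,
      Matrix.trace_fin_three, Matrix.mul_diagonal, Matrix.mul_diagonal, Matrix.mul_diagonal,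
      Matrix.mul_diagonal, Matrix.mul_diagonal, Matrix.mul_diagonal]
  have n01 : t 0 - t 1 ≠ 0 := fun h => absurd (hinj (sub_eq_zero.1 h)) (by decide)
  have n02 : t 0 - t 2 ≠ 0 := fun h => absurd (hinj (sub_eq_zero.1 h)) (by decide)
  have n12 : t 1 - t 2 ≠ 0 := fun h => absurd (hinj (sub_eq_zero.1 h)) (by decide)
  have f0 : v 0 0 * ((t 0 - t 1) * (t 0 - t 2)) = 0 := by
    linear_combination e2 - (t 1 + t 2) * e1 + (t 1 * t 2) * e0
  have f1 : v 1 1 * ((t 0 - t 1) * (t 1 - t 2)) = 0 := by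
    linear_combination -e2 + (t 0 + t 2) * e1 - (t 0 * t 2) * e0
  have f2 : v 2 2 * ((t 0 - t 2) * (t 1 - t 2)) = 0 := by
    linear_combination e2 - (t 0 + t 1) * e1 + (t 0 * t 1) * e0
  have hv0 : v = 0 := by
    ext i j
    by_cases hij : i = j
    · subst hij
      fin_cases i
      · exact (mul_eq_zero.1 f0).resolve_right (mul_ne_zero n01 n02)
      · exact (mul_eq_zero.1 f1).resolve_right (mul_ne_zero n01 n12)
      · exact (mul_eq_zero.1 f2).resolve_right (mul_ne_zero n02 n12)
    · exact hoff i j hij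
  have h3 : h * v * h⁻¹ = w := by
    rw [hv, ← Matrix.mul_assoc, ← Matrix.mul_assoc, Matrix.mul_nonsing_inv _ hu, Matrix.one_mul,
      Matrix.mul_assoc, Matrix.mul_nonsing_inv _ hu, Matrix.mul_one]
  rw [← h3, hv0, Matrix.mul_zero, Matrix.zero_mul]

end alg

section maps

variable {K K' : Type} [Field K] [Field K'] (f : K →+* K')

theorem trace_map' (z : Matrix (Fin 3) (Fin 3) K) : (z.map f).trace = f z.trace := by
  rw [Matrix.trace_fin_three, Matrix.trace_fin_three, map_add, map_add]
  rfl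

theorem map_mul' (x y : Matrix (Fin 3) (Fin 3) K) : (x * y).map f = x.map f * y.map f :=
  Matrix.map_mul

theorem pz_map (z : Matrix (Fin 3) (Fin 3) K) : pz (z.map f) = f (pz z) := by
  rw [pz, pz, ← map_mul', map_div₀, map_neg, trace_map', map_ofNat]

theorem qz_map (z : Matrix (Fin 3) (Fin 3) K) : qz (z.map f) = f (qz z) := by
  rw [qz, qz, map_neg, RingHom.map_det]
  rfl

theorem dz_map (z : Matrix (Fin 3) (Fin 3) K) : dz (z.map f) = f (dz z) := by
  rw [dz, dz, pz_map, qz_map]
  simp only [map_sub, map_mul, map_neg, map_pow, map_ofNat]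

theorem prj_map (z y : Matrix (Fin 3) (Fin 3) K) :
    prj (z.map f) (y.map f) = (prj z y).map f := by
  have h1 : ∀ (c : K) (x : Matrix (Fin 3) (Fin 3) K), (c • x).map f = f c • x.map f := by
    intro c x
    ext i j
    simp
  have h2 : ∀ x y : Matrix (Fin 3) (Fin 3) K, (x + y).map f = x.map f + y.map f := by
    intro x y
    ext i j
    simp
  have h3 : (1 : Matrix (Fin 3) (Fin 3) K).map f = 1 := by
    rw [Matrix.map_one f (map_zero f) (map_one f)]
  rw [prj, prj, h2, h2, h1, h1, h1, h3, pz_map, qz_map, trace_map', ← map_mul', ← map_mul',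
    ← map_mul', trace_map', trace_map']
  simp only [map_sub, map_add, map_mul, map_neg, map_pow, map_ofNat]

theorem adjugate_map (z : Matrix (Fin 3) (Fin 3) K) :
    (z.map f).adjugate = z.adjugate.map f := (RingHom.map_adjugate f z).symm

theorem fz_map (z g r : Matrix (Fin 3) (Fin 3) K) :
    fz (z.map f) (g.map f) (r.map f) = (fz z g r).map f := by
  have h2 : ∀ x y : Matrix (Fin 3) (Fin 3) K, (x - y).map f = x.map f - y.map f := by
    intro x y
    ext i j
    simp
  rw [fz, fz, map_mul', map_mul', ← prj_map, h2, map_mul', adjugate_map, adjugate_map]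

theorem cc_map (z g r : Matrix (Fin 3) (Fin 3) K) :
    cc (z.map f) (g.map f) (r.map f) = f (cc z g r) := by
  rw [cc, cc, dz_map, fz_map, ← map_mul', trace_map', trace_map']
  simp only [map_sub, map_mul, map_pow, map_ofNat]

end maps

section field

variable {K : Type} [Field K] [CharZero K] {z : Matrix (Fin 3) (Fin 3) K}

theorem eq_zero_of_trace {w : Matrix (Fin 3) (Fin 3) K}
    (h0 : z.trace = 0) (hd : dz z ≠ 0) (hw : w * z = z * w) (w0 : w.trace = 0)
    (w1 : (w * z).trace = 0) (w2 : (w * (z * z)).trace = 0) : w = 0 := by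
  have hinj := (algebraMap K (AlgebraicClosure K)).injective
  have : CharZero (AlgebraicClosure K) := charZero_of_injective_algebraMap hinj
  have h := eq_zero_of_trace' (z := z.map (algebraMap K (AlgebraicClosure K)))
    (w := w.map (algebraMap K (AlgebraicClosure K))) (by rw [trace_map', h0, map_zero])
    (by rw [dz_map]; exact fun h => hd (hinj (by rw [h, map_zero])))
    (by rw [← map_mul', hw, map_mul']) (by rw [trace_map', w0, map_zero])
    (by rw [← map_mul', trace_map', w1, map_zero])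
    (by rw [← map_mul', ← map_mul', trace_map', w2, map_zero])
  ext i j
  have h1 := congrFun (congrFun h i) j
  rw [Matrix.map_apply, Matrix.zero_apply] at h1
  rw [Matrix.zero_apply]
  exact hinj (by rw [h1, map_zero])

/-- The commutant of `z` is the algebra generated by `z`. -/
theorem eq_prj {y : Matrix (Fin 3) (Fin 3) K} (h0 : z.trace = 0) (hd : dz z ≠ 0)
    (hy : y * z = z * y) : dz z • y = prj z y := by
  rw [← sub_eq_zero]
  apply eq_zero_of_trace h0 hd
  · rw [Matrix.sub_mul, Matrix.mul_sub, prj_comm, Matrix.smul_mul, Matrix.mul_smul, hy]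
  · rw [Matrix.trace_sub, Matrix.trace_smul, trace_prj h0, smul_eq_mul, sub_self]
  · rw [Matrix.sub_mul, Matrix.trace_sub, Matrix.smul_mul, Matrix.trace_smul, trace_prj_z h0,
      smul_eq_mul, sub_self]
  · rw [Matrix.sub_mul, Matrix.trace_sub, Matrix.smul_mul, Matrix.trace_smul, trace_prj_zz h0,
      smul_eq_mul, sub_self]

/-- The commutant, with coefficients. -/
theorem exists_coeff {y : Matrix (Fin 3) (Fin 3) K} (h0 : z.trace = 0) (hd : dz z ≠ 0)
    (hy : y * z = z * y) : ∃ c0 c1 c2 : K,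
      y = c0 • (1 : Matrix (Fin 3) (Fin 3) K) + c1 • z + c2 • (z * z) := by
  have h := eq_prj h0 hd hy
  have h1 : y = (dz z)⁻¹ • prj z y := by
    rw [← h, smul_smul, inv_mul_cancel₀ hd, one_smul]
  rw [prj, smul_add, smul_add, smul_smul, smul_smul, smul_smul] at h1
  exact ⟨_, _, _, h1⟩

/-- The commutant of `z` is commutative. -/
theorem comm_comm {x y : Matrix (Fin 3) (Fin 3) K} (h0 : z.trace = 0) (hd : dz z ≠ 0)
    (hx : x * z = z * x) (hy : y * z = z * y) : x * y = y * x := by
  obtain ⟨c0, c1, c2, h⟩ := exists_coeff h0 hd hx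
  rw [h]
  simp only [Matrix.add_mul, Matrix.mul_add, Matrix.smul_mul, Matrix.mul_smul, Matrix.one_mul,
    Matrix.mul_one]
  rw [hy, Matrix.mul_assoc z z y, ← hy, ← Matrix.mul_assoc z y z, ← hy, Matrix.mul_assoc y z z]

/-- Elements of the commutant of `z` and symmetric matrices. -/
theorem comm_sym {y S : Matrix (Fin 3) (Fin 3) K} (h0 : z.trace = 0) (hd : dz z ≠ 0)
    (hy : y * z = z * y) (hS : z * S = S * zᵀ) : y * S = S * yᵀ := by
  obtain ⟨c0, c1, c2, h⟩ := exists_coeff h0 hd hy
  rw [h]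
  simp only [Matrix.add_mul, Matrix.mul_add, Matrix.smul_mul, Matrix.mul_smul, Matrix.one_mul,
    Matrix.mul_one, Matrix.transpose_add, Matrix.transpose_smul, Matrix.transpose_one,
    Matrix.transpose_mul]
  rw [hS, Matrix.mul_assoc z z S, hS, ← Matrix.mul_assoc z S, hS, Matrix.mul_assoc S]

/-- The companion matrix. -/
def cmp (p q : K) : Matrix (Fin 3) (Fin 3) K := !![0, 0, -q; 1, 0, -p; 0, 1, 0]

/-- The symmetric matrix attached to the companion matrix. -/
def cmpS (p : K) : Matrix (Fin 3) (Fin 3) K := !![p, 0, 1; 0, 1, 0; 1, 0, 0]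

/-- The matrix with columns `v`, `z v`, `z² v`. -/
def cyc (z : Matrix (Fin 3) (Fin 3) K) (v : Fin 3 → K) : Matrix (Fin 3) (Fin 3) K :=
  (Matrix.of ![v, z.mulVec v, z.mulVec (z.mulVec v)])ᵀ

omit [CharZero K] in
theorem cyc_map {K' : Type} [Field K'] (f : K →+* K') (z : Matrix (Fin 3) (Fin 3) K)
    (v : Fin 3 → K) : cyc (z.map f) (fun i => f (v i)) = (cyc z v).map f := by
  have h1 : ∀ u : Fin 3 → K, (z.map f).mulVec (fun i => f (u i)) = fun i => f (z.mulVec u i) := by
    intro u
    ext i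
    simp [Matrix.mulVec, dotProduct, map_sum]
  ext i j
  rw [cyc, h1, h1]
  fin_cases j <;> simp [cyc]

theorem z_mul_cyc (h0 : z.trace = 0) (v : Fin 3 → K) :
    z * cyc z v = cyc z v * cmp (pz z) (qz z) := by
  have h := z_cube h0
  have h1 : z.mulVec (z.mulVec (z.mulVec v)) = -(pz z • z.mulVec v) - qz z • v := by
    rw [Matrix.mulVec_mulVec, Matrix.mulVec_mulVec, h, Matrix.sub_mulVec, Matrix.neg_mulVec,
      Matrix.smul_mulVec, Matrix.smul_mulVec, Matrix.one_mulVec]
  ext i j
  fin_cases j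
  · simp [cyc, cmp, Matrix.mul_apply, Fin.sum_univ_three, Matrix.mulVec, dotProduct]
  · simp [cyc, cmp, Matrix.mul_apply, Fin.sum_univ_three, Matrix.mulVec, dotProduct]
    ring
  · have h2 := congrFun h1 i
    have h3 : (z * cyc z v) i 2 = z.mulVec (z.mulVec (z.mulVec v)) i := by
      simp [cyc, Matrix.mul_apply, Fin.sum_univ_three, Matrix.mulVec, dotProduct]
      ring
    change (z * cyc z v) i 2 = _
    rw [h3, h2]
    simp [cyc, cmp, Matrix.mul_apply, Fin.sum_univ_three]
    ring

omit [CharZero K] in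
theorem cmp_sym (p q : K) : cmp p q * cmpS p = cmpS p * (cmp p q)ᵀ := by
  ext i j
  fin_cases i <;> fin_cases j <;> simp [cmp, cmpS, Matrix.mul_apply, Fin.sum_univ_three]

/-- There is a cyclic vector. -/
theorem exists_cyc (h0 : z.trace = 0) (hd : dz z ≠ 0) : ∃ v : Fin 3 → K, (cyc z v).det ≠ 0 := by
  have hinj := (algebraMap K (AlgebraicClosure K)).injective
  have : CharZero (AlgebraicClosure K) := charZero_of_injective_algebraMap hinj
  set f := algebraMap K (AlgebraicClosure K) with hf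
  obtain ⟨t, h, htinj, hdet, hzh⟩ := exists_eig (z := z.map f) (by rw [trace_map', h0, map_zero])
    (by rw [dz_map]; exact fun h => hd (hinj (by rw [h, map_zero])))
  have hu : IsUnit h.det := isUnit_iff_ne_zero.2 hdet
  -- the rows of the inverse matrix
  have hrow : ∀ i : Fin 3, (C (h⁻¹ i 0) + C (h⁻¹ i 1) * X + C (h⁻¹ i 2) * X ^ 2 :
      (AlgebraicClosure K)[X]) ≠ 0 := by
    intro i hi
    have k0 : h⁻¹ i 0 = 0 := by
      have := congrArg (fun p => p.coeff 0) hi
      simpa [coeff_X, coeff_X_pow] using this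
    have k1 : h⁻¹ i 1 = 0 := by
      have := congrArg (fun p => p.coeff 1) hi
      simpa [coeff_X, coeff_X_pow, coeff_C] using this
    have k2 : h⁻¹ i 2 = 0 := by
      have := congrArg (fun p => p.coeff 2) hi
      simpa [coeff_X, coeff_X_pow, coeff_C] using this
    have h1 : (h⁻¹ * h) i i = 1 := by rw [Matrix.nonsing_inv_mul _ hu, Matrix.one_apply_eq]
    rw [Matrix.mul_apply, Fin.sum_univ_three, k0, k1, k2] at h1
    simp at h1
  obtain ⟨n, hn⟩ : ∃ n : ℕ, ∀ i : Fin 3,
      h⁻¹ i 0 + h⁻¹ i 1 * n + h⁻¹ i 2 * (n : AlgebraicClosure K) ^ 2 ≠ 0 := by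
    by_contra hcon
    push Not at hcon
    set P : (AlgebraicClosure K)[X] := ∏ i : Fin 3, (C (h⁻¹ i 0) + C (h⁻¹ i 1) * X +
      C (h⁻¹ i 2) * X ^ 2) with hP
    have hP0 : P ≠ 0 := Finset.prod_ne_zero_iff.2 fun i _ => hrow i
    apply hP0
    apply Polynomial.eq_zero_of_infinite_isRoot
    apply Set.Infinite.mono (s := Set.range fun n : ℕ => (n : AlgebraicClosure K))
    · rintro _ ⟨n, rfl⟩
      obtain ⟨i, hi⟩ := hcon n
      change P.eval (n : AlgebraicClosure K) = 0
      rw [hP, eval_prod]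
      apply Finset.prod_eq_zero (Finset.mem_univ i)
      simpa using hi
    · exact Set.infinite_range_of_injective Nat.cast_injective
  refine ⟨![1, (n : K), (n : K) ^ 2], fun hdet0 => ?_⟩
  set v : Fin 3 → AlgebraicClosure K := fun i => f ((![1, (n : K), (n : K) ^ 2] : Fin 3 → K) i)
    with hv
  have hv0 : v 0 = 1 := by simp [hv]
  have hv1 : v 1 = n := by simp [hv]
  have hv2 : v 2 = (n : AlgebraicClosure K) ^ 2 := by simp [hv]
  have e1 : (cyc (z.map f) v).det = 0 := by
    rw [hv, cyc_map]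
    have := RingHom.map_det f (cyc z ![1, (n : K), (n : K) ^ 2])
    rw [hdet0, map_zero] at this
    exact this.symm
  set s : Fin 3 → AlgebraicClosure K := h⁻¹.mulVec v with hs
  have hsv : h.mulVec s = v := by
    rw [hs, Matrix.mulVec_mulVec, Matrix.mul_nonsing_inv _ hu, Matrix.one_mulVec]
  have hs0 : ∀ i, s i ≠ 0 := by
    intro i hi
    apply hn i
    rw [← hi, hs, Matrix.mulVec, dotProduct, Fin.sum_univ_three, hv0, hv1, hv2, mul_one]
  have hz1 : ∀ u : Fin 3 → AlgebraicClosure K, (z.map f).mulVec (h.mulVec u) =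
      h.mulVec (fun i => t i * u i) := by
    intro u
    rw [Matrix.mulVec_mulVec, hzh, ← Matrix.mulVec_mulVec]
    congr 1
    ext i
    rw [Matrix.mulVec_diagonal]
  have e2 : cyc (z.map f) v =
      h * (Matrix.of ![s, fun i => t i * s i, fun i => t i * (t i * s i)])ᵀ := by
    rw [cyc, ← hsv, hz1, hz1]
    ext i j
    fin_cases j <;> simp [Matrix.mul_apply, Matrix.mulVec, dotProduct]
  rw [e2, Matrix.det_mul] at e1
  rcases mul_eq_zero.1 e1 with h1 | h1
  · exact hdet h1
  · have h2 : (Matrix.of ![s, fun i => t i * s i, fun i => t i * (t i * s i)])ᵀ.det =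
        s 0 * s 1 * s 2 * ((t 1 - t 0) * (t 2 - t 0) * (t 2 - t 1)) := by
      rw [Matrix.det_fin_three]
      simp
      ring
    rw [h2] at h1
    have n10 : t 1 - t 0 ≠ 0 := fun h => absurd (htinj (sub_eq_zero.1 h)) (by decide)
    have n20 : t 2 - t 0 ≠ 0 := fun h => absurd (htinj (sub_eq_zero.1 h)) (by decide)
    have n21 : t 2 - t 1 ≠ 0 := fun h => absurd (htinj (sub_eq_zero.1 h)) (by decide)
    exact mul_ne_zero (mul_ne_zero (mul_ne_zero (hs0 0) (hs0 1)) (hs0 2))
      (mul_ne_zero (mul_ne_zero n10 n20) n21) h1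

/-- There is an invertible symmetric matrix which intertwines `z` and its transpose. -/
theorem exists_sym (h0 : z.trace = 0) (hd : dz z ≠ 0) : ∃ S : Matrix (Fin 3) (Fin 3) K,
    Sᵀ = S ∧ z * S = S * zᵀ ∧ S.det ≠ 0 := by
  obtain ⟨v, hv⟩ := exists_cyc h0 hd
  refine ⟨cyc z v * cmpS (pz z) * (cyc z v)ᵀ, ?_, ?_, ?_⟩
  · have h1 : (cmpS (pz z))ᵀ = cmpS (pz z) := by
      ext i j
      fin_cases i <;> fin_cases j <;> simp [cmpS]
    rw [Matrix.transpose_mul, Matrix.transpose_mul, Matrix.transpose_transpose, h1,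
      Matrix.mul_assoc]
  · have h2 : (cyc z v)ᵀ * zᵀ = (cmp (pz z) (qz z))ᵀ * (cyc z v)ᵀ := by
      rw [← Matrix.transpose_mul, z_mul_cyc h0, Matrix.transpose_mul]
    rw [← Matrix.mul_assoc, ← Matrix.mul_assoc, z_mul_cyc h0, Matrix.mul_assoc _ _ (cmpS _),
      cmp_sym, Matrix.mul_assoc _ (cyc z v)ᵀ, h2]
    simp only [Matrix.mul_assoc]
  · have h3 : (cmpS (pz z)).det = -1 := by
      rw [Matrix.det_fin_three]
      simp [cmpS]
    rw [Matrix.det_mul, Matrix.det_mul, Matrix.det_transpose, h3]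
    exact mul_ne_zero (mul_ne_zero hv (by norm_num)) hv

end field

end Vale.Agent.P011.E6I
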