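import Vale.Agent.P011.E6.Act
import Vale.Agent.P011.E6I.H369.Cent

/-!
Quaternion matrices which commute with a matrix of degree three of nonzero discriminant.
-/

namespace Vale.Agent.P011.E6I

open Matrix QuaternionAlgebra
open Vale.Agent.P011.MPQ Vale.Agent.P011.D4 Vale.Agent.P011.D4.Oct Vale.Agent.P011.E6

section coords

variable {K : Type} [Field K] {a b : Kˣ}

/-- A matrix over the field, as a matrix over the quaternions. -/
def tm (a b : Kˣ) (z : Matrix (Fin 3) (Fin 3) K) : Matrix (Fin 3) (Fin 3) (Qt a b) :=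
  z.map (algebraMap K _)

/-- The coordinate matrices. -/
def co (i : Fin 4) (m : Matrix (Fin 3) (Fin 3) (Qt a b)) : Matrix (Fin 3) (Fin 3) K :=
  match i with
  | 0 => m.map QuaternionAlgebra.re
  | 1 => m.map QuaternionAlgebra.imI
  | 2 => m.map QuaternionAlgebra.imJ
  | 3 => m.map QuaternionAlgebra.imK

theorem co_ext {m n : Matrix (Fin 3) (Fin 3) (Qt a b)} (h : ∀ i, co i m = co i n) : m = n := by
  ext i j
  · exact congrFun (congrFun (h 0) i) j
  · exact congrFun (congrFun (h 1) i) j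
  · exact congrFun (congrFun (h 2) i) j
  · exact congrFun (congrFun (h 3) i) j

theorem co_mul0 (m n : Matrix (Fin 3) (Fin 3) (Qt a b)) : co 0 (m * n) =
    co 0 m * co 0 n + (a : K) • (co 1 m * co 1 n) + (b : K) • (co 2 m * co 2 n) -
      ((a : K) * b) • (co 3 m * co 3 n) := by
  ext i j
  simp [co, Matrix.mul_apply, Fin.sum_univ_three]
  ring

theorem co_mul1 (m n : Matrix (Fin 3) (Fin 3) (Qt a b)) : co 1 (m * n) =
    co 0 m * co 1 n + co 1 m * co 0 n - (b : K) • (co 2 m * co 3 n) +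
      (b : K) • (co 3 m * co 2 n) := by
  ext i j
  simp [co, Matrix.mul_apply, Fin.sum_univ_three]
  ring

theorem co_mul2 (m n : Matrix (Fin 3) (Fin 3) (Qt a b)) : co 2 (m * n) =
    co 0 m * co 2 n + co 2 m * co 0 n + (a : K) • (co 1 m * co 3 n) -
      (a : K) • (co 3 m * co 1 n) := by
  ext i j
  simp [co, Matrix.mul_apply, Fin.sum_univ_three]
  ring

theorem co_mul3 (m n : Matrix (Fin 3) (Fin 3) (Qt a b)) : co 3 (m * n) =
    co 0 m * co 3 n + co 3 m * co 0 n + co 1 m * co 2 n - co 2 m * co 1 n := by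
  ext i j
  simp [co, Matrix.mul_apply, Fin.sum_univ_three]
  ring

theorem co_tm0 (z : Matrix (Fin 3) (Fin 3) K) : co 0 (tm a b z) = z := by
  ext i j
  simp [co, tm]

theorem co_tm1 (z : Matrix (Fin 3) (Fin 3) K) : co 1 (tm a b z) = 0 := by
  ext i j
  simp [co, tm]

theorem co_tm2 (z : Matrix (Fin 3) (Fin 3) K) : co 2 (tm a b z) = 0 := by
  ext i j
  simp [co, tm]

theorem co_tm3 (z : Matrix (Fin 3) (Fin 3) K) : co 3 (tm a b z) = 0 := by
  ext i j
  simp [co, tm]

theorem co_mul_tm (i : Fin 4) (m : Matrix (Fin 3) (Fin 3) (Qt a b))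
    (z : Matrix (Fin 3) (Fin 3) K) : co i (m * tm a b z) = co i m * z := by
  fin_cases i
  · change co 0 _ = co 0 _ * _
    rw [co_mul0, co_tm0, co_tm1, co_tm2, co_tm3]
    simp
  · change co 1 _ = co 1 _ * _
    rw [co_mul1, co_tm0, co_tm1, co_tm2, co_tm3]
    simp
  · change co 2 _ = co 2 _ * _
    rw [co_mul2, co_tm0, co_tm1, co_tm2, co_tm3]
    simp
  · change co 3 _ = co 3 _ * _
    rw [co_mul3, co_tm0, co_tm1, co_tm2, co_tm3]
    simp

theorem co_tm_mul (i : Fin 4) (m : Matrix (Fin 3) (Fin 3) (Qt a b))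
    (z : Matrix (Fin 3) (Fin 3) K) : co i (tm a b z * m) = z * co i m := by
  fin_cases i
  · change co 0 _ = _ * co 0 _
    rw [co_mul0, co_tm0, co_tm1, co_tm2, co_tm3]
    simp
  · change co 1 _ = _ * co 1 _
    rw [co_mul1, co_tm0, co_tm1, co_tm2, co_tm3]
    simp
  · change co 2 _ = _ * co 2 _
    rw [co_mul2, co_tm0, co_tm1, co_tm2, co_tm3]
    simp
  · change co 3 _ = _ * co 3 _
    rw [co_mul3, co_tm0, co_tm1, co_tm2, co_tm3]
    simp

/-- The coordinates commute with `z`. -/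
theorem co_comm {m : Matrix (Fin 3) (Fin 3) (Qt a b)} {z : Matrix (Fin 3) (Fin 3) K}
    (h : m * tm a b z = tm a b z * m) (i : Fin 4) : co i m * z = z * co i m := by
  rw [← co_mul_tm, h, co_tm_mul]

theorem co_star0 (m : Matrix (Fin 3) (Fin 3) (Qt a b)) : co 0 (m.map star) = co 0 m := by
  ext i j
  simp [co]

theorem co_star1 (m : Matrix (Fin 3) (Fin 3) (Qt a b)) : co 1 (m.map star) = -co 1 m := by
  ext i j
  simp [co]

theorem co_star2 (m : Matrix (Fin 3) (Fin 3) (Qt a b)) : co 2 (m.map star) = -co 2 m := by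
  ext i j
  simp [co]

theorem co_star3 (m : Matrix (Fin 3) (Fin 3) (Qt a b)) : co 3 (m.map star) = -co 3 m := by
  ext i j
  simp [co]

theorem co_ct (i : Fin 4) (m : Matrix (Fin 3) (Fin 3) (Qt a b)) :
    co i mᴴ = (co i (m.map star))ᵀ := by
  fin_cases i <;> rfl

theorem tm_mul (x y : Matrix (Fin 3) (Fin 3) K) : tm a b (x * y) = tm a b x * tm a b y :=
  Matrix.map_mul

theorem tm_inj {x y : Matrix (Fin 3) (Fin 3) K} (h : tm a b x = tm a b y) : x = y := by
  rw [← co_tm0 (a := a) (b := b) x, h, co_tm0]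

theorem tm_one : tm a b 1 = 1 := by
  rw [tm, Matrix.map_one _ (map_zero _) (map_one _)]

/-- The norm of a quaternion matrix which commutes with `z`, as a matrix over the field. -/
def nq (m : Matrix (Fin 3) (Fin 3) (Qt a b)) : Matrix (Fin 3) (Fin 3) K := co 0 (m * m.map star)

theorem nq_eq (m : Matrix (Fin 3) (Fin 3) (Qt a b)) : nq m =
    co 0 m * co 0 m - (a : K) • (co 1 m * co 1 m) - (b : K) • (co 2 m * co 2 m) +
      ((a : K) * b) • (co 3 m * co 3 m) := by
  rw [nq, co_mul0, co_star0, co_star1, co_star2, co_star3]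
  simp only [Matrix.mul_neg, smul_neg, sub_neg_eq_add]
  abel

end coords

section comm

variable {K : Type} [Field K] [CharZero K] {a b : Kˣ} {z : Matrix (Fin 3) (Fin 3) K}
  {m : Matrix (Fin 3) (Fin 3) (Qt a b)}

theorem mul_star_nq (h0 : z.trace = 0) (hd : dz z ≠ 0) (h : m * tm a b z = tm a b z * m) :
    m * m.map star = tm a b (nq m) := by
  have hc : ∀ i j, co i m * co j m = co j m * co i m := fun i j =>
    comm_comm h0 hd (co_comm h i) (co_comm h j)
  apply co_ext
  intro i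
  fin_cases i
  · change co 0 _ = co 0 _
    rw [co_tm0, nq]
  · change co 1 _ = co 1 _
    rw [co_tm1, co_mul1, co_star0, co_star1, co_star2, co_star3]
    simp only [Matrix.mul_neg, smul_neg]
    rw [hc 0 1, hc 2 3]
    abel
  · change co 2 _ = co 2 _
    rw [co_tm2, co_mul2, co_star0, co_star1, co_star2, co_star3]
    simp only [Matrix.mul_neg, smul_neg]
    rw [hc 0 2, hc 1 3]
    abel
  · change co 3 _ = co 3 _
    rw [co_tm3, co_mul3, co_star0, co_star1, co_star2, co_star3]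
    simp only [Matrix.mul_neg]
    rw [hc 0 3, hc 1 2]
    abel

omit [CharZero K] in
theorem star_comm (h : m * tm a b z = tm a b z * m) :
    m.map star * tm a b z = tm a b z * m.map star := by
  apply co_ext
  intro i
  rw [co_mul_tm, co_tm_mul]
  fin_cases i
  · change co 0 _ * _ = _ * co 0 _
    rw [co_star0, co_comm h]
  · change co 1 _ * _ = _ * co 1 _
    rw [co_star1, Matrix.neg_mul, Matrix.mul_neg, co_comm h]
  · change co 2 _ * _ = _ * co 2 _
    rw [co_star2, Matrix.neg_mul, Matrix.mul_neg, co_comm h]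
  · change co 3 _ * _ = _ * co 3 _
    rw [co_star3, Matrix.neg_mul, Matrix.mul_neg, co_comm h]

omit [CharZero K] in
theorem nq_comm (h : m * tm a b z = tm a b z * m) : nq m * z = z * nq m := by
  rw [nq, ← co_mul_tm, ← co_tm_mul, Matrix.mul_assoc, star_comm h, ← Matrix.mul_assoc, h,
    Matrix.mul_assoc]

theorem tm_mul_ct (h0 : z.trace = 0) (hd : dz z ≠ 0) (h : m * tm a b z = tm a b z * m)
    {S : Matrix (Fin 3) (Fin 3) K} (hS : z * S = S * zᵀ) :
    tm a b S * mᴴ = m.map star * tm a b S := by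
  apply co_ext
  intro i
  rw [co_mul_tm, co_tm_mul, co_ct]
  exact (comm_sym h0 hd (co_comm (star_comm h) i) hS).symm

theorem mul_S_ct (h0 : z.trace = 0) (hd : dz z ≠ 0) (h : m * tm a b z = tm a b z * m)
    {S : Matrix (Fin 3) (Fin 3) K} (hS : z * S = S * zᵀ) :
    m * tm a b S * mᴴ = tm a b (nq m * S) := by
  rw [Matrix.mul_assoc, tm_mul_ct h0 hd h hS, ← Matrix.mul_assoc, mul_star_nq h0 hd h, tm_mul]

omit [CharZero K] in
theorem tm_herm {S : Matrix (Fin 3) (Fin 3) K} (hS : Sᵀ = S) : (tm a b S).IsHermitian := by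
  ext i j : 1
  have h := congrFun (congrFun hS i) j
  rw [Matrix.transpose_apply] at h
  simp only [tm, Matrix.conjTranspose_apply, Matrix.map_apply, h]
  ext <;> simp

omit [CharZero K] in
theorem herN_tm {S : Matrix (Fin 3) (Fin 3) K} (hS : Sᵀ = S) :
    H64.herN (tm a b S) = S.det := by
  have h1 : S 1 0 = S 0 1 := congrFun (congrFun hS 0) 1
  have h2 : S 2 0 = S 0 2 := congrFun (congrFun hS 0) 2
  have h3 : S 2 1 = S 1 2 := congrFun (congrFun hS 1) 2
  rw [H64.herN, Matrix.det_fin_three]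
  simp [tm, nrd, h1, h2, h3]
  ring

theorem nu_eq_det (hab : Aniso a b) (h0 : z.trace = 0) (hd : dz z ≠ 0)
    (h : m * tm a b z = tm a b z * m) : nu m = (nq m).det := by
  obtain ⟨S, hS, hzS, hdS⟩ := exists_sym h0 hd
  have h1 := H64.herN_mul two_ne_zero hab m (tm a b S) (tm_herm hS)
  have h2 : (nq m * S)ᵀ = nq m * S := by
    rw [Matrix.transpose_mul, hS, comm_sym h0 hd (nq_comm h) hzS]
  rw [mul_S_ct h0 hd h hzS, herN_tm hS, herN_tm h2, Matrix.det_mul] at h1
  exact (mul_right_cancel₀ hdS h1).symm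

omit [CharZero K] in
theorem nu_tm (g : Matrix (Fin 3) (Fin 3) K) :
    nu (tm a b g) = g.det ^ 2 := by
  have h2 : (g * gᵀ)ᵀ = g * gᵀ := by rw [Matrix.transpose_mul, Matrix.transpose_transpose]
  have h3 : tm a b g * (tm a b g)ᴴ = tm a b (g * gᵀ) := by
    rw [tm_mul]
    congr 1
    ext i j : 1
    simp only [tm, Matrix.conjTranspose_apply, Matrix.map_apply, Matrix.transpose_apply]
    ext <;> simp
  rw [H64.nu_eq, h3, herN_tm h2, Matrix.det_mul, Matrix.det_transpose, sq]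

/-- The action on the symmetric matrices attached to `z`. -/
theorem act_ofF {c : Kˣ} (h0 : z.trace = 0) (hd : dz z ≠ 0)
    {m : (Matrix (Fin 3) (Fin 3) (Qt a b))ˣ}
    (h : (m : Matrix (Fin 3) (Fin 3) (Qt a b)) * tm a b z = tm a b z * m)
    {S : Matrix (Fin 3) (Fin 3) K} (hS : Sᵀ = S) (hzS : z * S = S * zᵀ) :
    Alb.act m 1 (Alb.ofF S : Alb a b c) =
      Alb.ofF (nq (m : Matrix (Fin 3) (Fin 3) (Qt a b)) * S) := by
  have hmat : ∀ T : Matrix (Fin 3) (Fin 3) K, Tᵀ = T →
      Alb.mat (Alb.ofF T : Alb a b c) = tm a b T := by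
    intro T hT
    have h1 : T 1 0 = T 0 1 := congrFun (congrFun hT 0) 1
    have h2 : T 2 0 = T 0 2 := congrFun (congrFun hT 0) 2
    have h3 : T 2 1 = T 1 2 := congrFun (congrFun hT 1) 2
    ext i j : 1
    fin_cases i <;> fin_cases j <;> ext <;> simp [Alb.mat, Alb.ofF, tm, h1, h2, h3]
  have hvec : ∀ T : Matrix (Fin 3) (Fin 3) K, Alb.vec (Alb.ofF T : Alb a b c) = 0 := by
    intro T
    ext i
    all_goals fin_cases i <;> simp [Alb.vec, Alb.ofF]
  have h2 : (nq (m : Matrix (Fin 3) (Fin 3) (Qt a b)) * S)ᵀ =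
      nq (m : Matrix (Fin 3) (Fin 3) (Qt a b)) * S := by
    rw [Matrix.transpose_mul, hS, comm_sym h0 hd (nq_comm h) hzS]
  rw [← H64.ofMV_mat_vec (Alb.ofF (nq (m : Matrix (Fin 3) (Fin 3) (Qt a b)) * S)), hmat _ h2,
    hvec, Alb.act, hmat _ hS, hvec, mul_S_ct h0 hd h hzS, Matrix.zero_vecMul]
  congr 1
  ext i
  all_goals simp

end comm

end Vale.Agent.P011.E6I
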