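import Vale.Agent.P011.E6I.Bas0
import Vale.Agent.P011.E6I.H369.Qn

/-!
Elements of the division algebras `D` and `D ⊗ Q`: discriminants, norms, positivity.
-/

namespace Vale.Agent.P011.E6I

open Matrix
open Vale.Agent.P011.MPQ Vale.Agent.P011.D4 Vale.Agent.P011.D4.Oct Vale.Agent.P011.E6

section gen

variable {k L : Type} [Field k] [Field L] [Algebra k L] {ρ : L ≃ₐ[k] L} {lam : kˣ} {a b c : kˣ}

theorem D0_map (z : Matrix (Fin 3) (Fin 3) L) : z.map ρ = z.map (ρ : L →+* L) := rfl

theorem D0_mul {x y : Matrix (Fin 3) (Fin 3) L} (hx : InD0 ρ lam x) (hy : InD0 ρ lam y) :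
    InD0 ρ lam (x * y) := by
  rw [InD0] at *
  rw [D0_map, map_mul', Matrix.mul_assoc, hy, ← Matrix.mul_assoc, hx, Matrix.mul_assoc]
  rfl

theorem D0_sub {x y : Matrix (Fin 3) (Fin 3) L} (hx : InD0 ρ lam x) (hy : InD0 ρ lam y) :
    InD0 ρ lam (x - y) := by
  have h : (x - y).map ρ = x.map ρ - y.map ρ := by
    ext i j
    simp
  rw [InD0] at *
  rw [h, Matrix.sub_mul, hx, hy, Matrix.mul_sub]

theorem D0_add {x y : Matrix (Fin 3) (Fin 3) L} (hx : InD0 ρ lam x) (hy : InD0 ρ lam y) :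
    InD0 ρ lam (x + y) := by
  have h : (x + y).map ρ = x.map ρ + y.map ρ := by
    ext i j
    simp
  rw [InD0] at *
  rw [h, Matrix.add_mul, hx, hy, Matrix.mul_add]

theorem D0_smul {t : L} (ht : ρ t = t) {x : Matrix (Fin 3) (Fin 3) L} (hx : InD0 ρ lam x) :
    InD0 ρ lam (t • x) := by
  have h : (t • x).map ρ = t • x.map ρ := by
    ext i j
    simp [ht]
  rw [InD0] at *
  rw [h, Matrix.smul_mul, hx, Matrix.mul_smul]

theorem D0_one : InD0 ρ lam (1 : Matrix (Fin 3) (Fin 3) L) := by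
  rw [InD0, D0_map, Matrix.map_one _ (map_zero _) (map_one _), Matrix.one_mul, Matrix.mul_one]

/-- The matrix `z` and its conjugate. -/
theorem D0_eq {z : Matrix (Fin 3) (Fin 3) L} (hz : InD0 ρ lam z) :
    z.map ρ = w0 L lam * z * u0 L lam := by
  rw [Matrix.mul_assoc, hz, ← Matrix.mul_assoc, w0_mul_u0, Matrix.one_mul]

theorem D0_trace {z : Matrix (Fin 3) (Fin 3) L} (hz : InD0 ρ lam z) : ρ z.trace = z.trace := by
  have h := congrArg Matrix.trace (D0_eq hz)
  rw [D0_map, trace_map', Matrix.trace_mul_comm, ← Matrix.mul_assoc, u0_mul_w0, Matrix.one_mul] at h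
  exact h

theorem D0_det {z : Matrix (Fin 3) (Fin 3) L} (hz : InD0 ρ lam z) : ρ z.det = z.det := by
  have h := congrArg Matrix.det (D0_eq hz)
  have h1 : (u0 L lam).det * (w0 L lam).det = 1 := by
    rw [← Matrix.det_mul, u0_mul_w0, Matrix.det_one]
  have h2 : (z.map ρ).det = ρ z.det := (RingHom.map_det (ρ : L →+* L) z).symm
  rw [h2, Matrix.det_mul, Matrix.det_mul] at h
  rw [h]
  linear_combination z.det * h1

/-- The adjugate. -/
theorem D0_adj {z : Matrix (Fin 3) (Fin 3) L} (hz : InD0 ρ lam z) : InD0 ρ lam z.adjugate := by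
  have h2 : (z.map ρ).adjugate = z.adjugate.map ρ :=
    (RingHom.map_adjugate (ρ : L →+* L) z).symm
  have h1 := congrArg Matrix.adjugate hz
  rw [Matrix.adjugate_mul_distrib, Matrix.adjugate_mul_distrib, h2] at h1
  have h3 : (u0 L lam).adjugate = (u0 L lam).det • w0 L lam := by
    have h4 := Matrix.adjugate_mul (u0 L lam)
    have h5 := congrArg (fun m => m * w0 L lam) h4
    simp only [Matrix.mul_assoc, u0_mul_w0, Matrix.mul_one, Matrix.smul_mul, Matrix.one_mul] at h5
    exact h5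
  have h6 : (u0 L lam).det ≠ 0 := by
    intro h
    have h1 : (u0 L lam).det * (w0 L lam).det = 1 := by
      rw [← Matrix.det_mul, u0_mul_w0, Matrix.det_one]
    rw [h, zero_mul] at h1
    exact zero_ne_one h1
  rw [h3, Matrix.smul_mul, Matrix.mul_smul] at h1
  have h7 := smul_right_injective _ h6 h1
  rw [InD0]
  calc z.adjugate * u0 L lam = u0 L lam * (w0 L lam * z.adjugate) * u0 L lam := by
        rw [← Matrix.mul_assoc, u0_mul_w0, Matrix.one_mul]
    _ = u0 L lam * (z.adjugate.map ρ * (w0 L lam * u0 L lam)) := by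
        rw [h7, Matrix.mul_assoc, Matrix.mul_assoc]
    _ = _ := by rw [w0_mul_u0, Matrix.mul_one]

theorem InD0_toMQ {x : Matrix (Fin 3) (Fin 3) L} :
    InD ρ lam (toMQ x : MQ L a b) ↔ InD0 ρ lam x := by
  have h : (toMQ x : MQ L a b).map (qmap ρ) = toMQ (x.map ρ) := by
    apply Matrix.ext
    intro i j
    exact H64.qmap_coe ρ (x i j)
  rw [InD, InD0, h, ← toMQ_mul, ← toMQ_mul]
  exact ⟨fun h => tm_inj h, fun h => by rw [h]⟩

/-- Conjugation of the entries. -/
theorem InD_star {m : MQ L a b} (hm : InD ρ lam m) : InD ρ lam (m.map star) := by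
  have e : ∀ i, co i ((m.map star).map (qmap ρ)) = co i ((m.map (qmap ρ)).map star) := by
    intro i
    congr 1
    ext i j : 1
    simp only [Matrix.map_apply, qmap_star]
  have h : ∀ i, co i m * u0 L lam = u0 L lam * co i (m.map (qmap ρ)) := by
    intro i
    have := congrArg (co i) hm
    rw [show (toMQ (u0 L lam) : MQ L a b) = tm (up L a) (up L b) (u0 L lam) from rfl,
      co_mul_tm, co_tm_mul] at this
    exact this
  rw [InD, show (toMQ (u0 L lam) : MQ L a b) = tm (up L a) (up L b) (u0 L lam) from rfl]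
  apply co_ext
  intro i
  rw [co_mul_tm, co_tm_mul, e]
  fin_cases i
  · change co 0 _ * _ = _ * co 0 _
    rw [co_star0, co_star0, h]
  · change co 1 _ * _ = _ * co 1 _
    rw [co_star1, co_star1, Matrix.neg_mul, Matrix.mul_neg, h]
  · change co 2 _ * _ = _ * co 2 _
    rw [co_star2, co_star2, Matrix.neg_mul, Matrix.mul_neg, h]
  · change co 3 _ * _ = _ * co 3 _
    rw [co_star3, co_star3, Matrix.neg_mul, Matrix.mul_neg, h]

/-- The coordinates of an element of `D ⊗ Q` are in `D`. -/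
theorem InD_co {m : MQ L a b} (hm : InD ρ lam m) (i : Fin 4) : InD0 ρ lam (co i m) := by
  have := congrArg (co i) hm
  rw [show (toMQ (u0 L lam) : MQ L a b) = tm (up L a) (up L b) (u0 L lam) from rfl,
    co_mul_tm, co_tm_mul] at this
  rw [InD0, this]
  congr 1
  fin_cases i <;> rfl

theorem nq_inD0 [CharZero L] {z : Matrix (Fin 3) (Fin 3) L} (h0 : z.trace = 0) (hd : dz z ≠ 0)
    {m : MQ L a b} (hm : InD ρ lam m) (h : m * toMQ z = toMQ z * m) : InD0 ρ lam (nq m) := by
  rw [← InD0_toMQ (a := a) (b := b), show (toMQ (nq m) : MQ L a b) = tm (up L a) (up L b) (nq m)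
    from rfl, ← mul_star_nq h0 hd h]
  exact hm.mul (InD_star hm)

end gen

section nf

variable {k L : Type} [Field k] [NumberField k] [Field L] [NumberField L] [Algebra k L]
  {ρ : L ≃ₐ[k] L} {lam : kˣ} {a b c : kˣ}

theorem det_sub_smul {K : Type} [Field K] [CharZero K] {z : Matrix (Fin 3) (Fin 3) K}
    (h0 : z.trace = 0) (t : K) :
    (z - t • (1 : Matrix (Fin 3) (Fin 3) K)).det = -(t ^ 3 + pz z * t + qz z) := by
  have hz2 : z 2 2 = -z 0 0 - z 1 1 := by
    rw [Matrix.trace_fin_three] at h0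
    linear_combination h0
  simp [pz, qz, Matrix.mul_apply, Fin.sum_univ_three, Matrix.trace_fin_three,
    Matrix.det_fin_three, hz2]
  ring

/-- `D` is a division algebra. -/
theorem det_ne_zero_D0 (H : Hyp ρ lam a b c) {z : Matrix (Fin 3) (Fin 3) L}
    (hz : InD0 ρ lam z) (h0 : z ≠ 0) : z.det ≠ 0 := by
  intro hdet
  have hu : IsUnit (toMQ z : MQ L a b) := by
    apply isUnit_of_inD H (InD0_toMQ.2 hz)
    intro h
    apply h0
    have h1 : (tm (up L a) (up L b) z) = tm (up L a) (up L b) 0 := by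
      rw [show (tm (up L a) (up L b) z) = toMQ z from rfl, h]
      exact (Matrix.map_zero _ (map_zero _)).symm
    exact tm_inj h1
  obtain ⟨n, hn⟩ := hu
  obtain ⟨v, hv, h⟩ := Matrix.exists_vecMul_eq_zero_iff.2 hdet
  have h1 : (Matrix.of fun _ => v : Matrix (Fin 3) (Fin 3) L) * z = 0 := by
    ext i j
    exact congrFun h j
  have h2 : (toMQ (Matrix.of fun _ => v : Matrix (Fin 3) (Fin 3) L) : MQ L a b) = 0 := by
    calc (toMQ (Matrix.of fun _ => v : Matrix (Fin 3) (Fin 3) L) : MQ L a b)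
        = toMQ (Matrix.of fun _ => v : Matrix (Fin 3) (Fin 3) L) * toMQ z *
            ((n⁻¹ : (MQ L a b)ˣ) : MQ L a b) := by
          rw [← hn, Matrix.mul_assoc, Units.mul_inv, Matrix.mul_one]
      _ = 0 := by
          rw [← toMQ_mul, h1]
          have : (toMQ (0 : Matrix (Fin 3) (Fin 3) L) : MQ L a b) = 0 :=
            Matrix.map_zero _ (map_zero _)
          rw [this, Matrix.zero_mul]
  apply hv
  ext j
  exact congrArg QuaternionAlgebra.re (congrFun (congrFun h2 0) j)

/-- The discriminant of a nonscalar element of `D` is not zero. -/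
theorem dz_ne_zero (H : Hyp ρ lam a b c) {z : Matrix (Fin 3) (Fin 3) L}
    (hz : InD0 ρ lam z) (h0 : z.trace = 0)
    (hzk : ∀ t : L, z ≠ t • (1 : Matrix (Fin 3) (Fin 3) L)) : dz z ≠ 0 := by
  intro hdz
  have hz0 : z ≠ 0 := fun h => hzk 0 (by rw [h, zero_smul])
  have hq0 : qz z ≠ 0 := by
    rw [qz]
    exact neg_ne_zero.2 (det_ne_zero_D0 H hz hz0)
  have hp0 : pz z ≠ 0 := by
    intro hp
    rw [dz, hp] at hdz
    apply hq0
    have : (27 : L) * qz z ^ 2 = 0 := by linear_combination -hdz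
    have h27 : (27 : L) ≠ 0 := by norm_num
    exact pow_eq_zero_iff (two_ne_zero) |>.1 ((mul_eq_zero.1 this).resolve_left h27)
  have hρp : ρ (pz z) = pz z := by
    rw [pz, map_div₀, map_neg, D0_trace (D0_mul hz hz), map_ofNat]
  have hρq : ρ (qz z) = qz z := by
    rw [qz, map_neg, D0_det hz]
  set t := 3 * qz z / pz z with ht
  have hρt : ρ t = t := by
    rw [ht, map_div₀, map_mul, hρp, hρq, map_ofNat]
  have hroot : t ^ 3 + pz z * t + qz z = 0 := by
    rw [ht]
    rw [dz] at hdz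
    field_simp
    linear_combination (-qz z) * hdz
  have h1 := det_sub_smul h0 t
  rw [hroot, neg_zero] at h1
  have h2 : InD0 ρ lam (z - t • (1 : Matrix (Fin 3) (Fin 3) L)) :=
    D0_sub hz (D0_smul hρt D0_one)
  exact det_ne_zero_D0 H h2 (sub_ne_zero.2 (hzk t)) h1

omit [NumberField k] in
/-- Positivity of the norm at the real eigenvectors. -/
theorem nq_pos {z : Matrix (Fin 3) (Fin 3) L} (h0 : z.trace = 0) (hd : dz z ≠ 0) {m : MQ L a b}
    (h : m * toMQ z = toMQ z * m) (hdet : (nq m).det ≠ 0) (w : L →+* ℝ)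
    (ha : w (up L a : L) < 0) (hb : w (up L b : L) < 0) {v : Fin 3 → ℝ} {t s : ℝ} (hv : v ≠ 0)
    (hz : (z.map w).mulVec v = t • v) (hs : ((nq m).map w).mulVec v = s • v) : 0 < s := by
  have key : ∀ i, ∃ r : ℝ, ((co i m).map w).mulVec v = r • v := by
    intro i
    obtain ⟨c0, c1, c2, hc⟩ := exists_coeff h0 hd (co_comm (a := up L a) (b := up L b) h i)
    refine ⟨w c0 + w c1 * t + w c2 * (t * t), ?_⟩
    have h1 : (co i m).map w = w c0 • (1 : Matrix (Fin 3) (Fin 3) ℝ) + w c1 • z.map w +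
        w c2 • (z.map w * z.map w) := by
      rw [hc]
      ext i j
      by_cases hij : i = j
      · subst hij
        simp [Matrix.mul_apply, Fin.sum_univ_three]
      · simp [Matrix.mul_apply, Fin.sum_univ_three, hij]
    rw [h1, Matrix.add_mulVec, Matrix.add_mulVec, Matrix.smul_mulVec, Matrix.smul_mulVec,
      Matrix.smul_mulVec, Matrix.one_mulVec, ← Matrix.mulVec_mulVec, hz, Matrix.mulVec_smul, hz]
    module
  obtain ⟨r0, hr0⟩ := key 0
  obtain ⟨r1, hr1⟩ := key 1
  obtain ⟨r2, hr2⟩ := key 2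
  obtain ⟨r3, hr3⟩ := key 3
  have hsq : ∀ {i : Fin 4} {r : ℝ}, ((co i m).map w).mulVec v = r • v →
      ((co i m).map w * (co i m).map w).mulVec v = (r * r) • v := by
    intro i r hr
    rw [← Matrix.mulVec_mulVec, hr, Matrix.mulVec_smul, hr, smul_smul]
  have h2 : (nq m).map w = (co 0 m).map w * (co 0 m).map w -
      w (up L a : L) • ((co 1 m).map w * (co 1 m).map w) -
      w (up L b : L) • ((co 2 m).map w * (co 2 m).map w) +
      (w (up L a : L) * w (up L b : L)) • ((co 3 m).map w * (co 3 m).map w) := by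
    have g1 : ∀ (r : L) (x : Matrix (Fin 3) (Fin 3) L), (r • x).map w = w r • x.map w := by
      intro r x
      ext i j
      simp
    have g2 : ∀ x y : Matrix (Fin 3) (Fin 3) L, (x + y).map w = x.map w + y.map w := by
      intro x y
      ext i j
      simp
    have g3 : ∀ x y : Matrix (Fin 3) (Fin 3) L, (x - y).map w = x.map w - y.map w := by
      intro x y
      ext i j
      simp
    rw [nq_eq, ← map_mul', ← map_mul', ← map_mul', ← map_mul', g2, g3, g3, g1, g1, g1, map_mul]
  have h3 : s • v = (r0 * r0 - w (up L a : L) * (r1 * r1) - w (up L b : L) * (r2 * r2) +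
      w (up L a : L) * w (up L b : L) * (r3 * r3)) • v := by
    rw [← hs, h2, Matrix.add_mulVec, Matrix.sub_mulVec, Matrix.sub_mulVec, Matrix.smul_mulVec,
      Matrix.smul_mulVec, Matrix.smul_mulVec, hsq hr0, hsq hr1, hsq hr2, hsq hr3]
    module
  have h4 := smul_left_injective ℝ hv h3
  have h5 : s ≠ 0 := by
    intro hs0
    rw [hs0, zero_smul] at hs
    have h6 : ((nq m).map w).det = 0 := Matrix.exists_mulVec_eq_zero_iff.1 ⟨v, hv, hs⟩
    have h7 : ((nq m).map w).det = w (nq m).det := (RingHom.map_det w (nq m)).symm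
    rw [h7] at h6
    exact hdet ((map_eq_zero w).1 h6)
  have h8 : 0 ≤ s := by
    rw [h4]
    have := mul_nonneg (neg_pos.2 ha).le (mul_self_nonneg r1)
    have := mul_nonneg (neg_pos.2 hb).le (mul_self_nonneg r2)
    have := mul_nonneg (mul_pos_of_neg_of_neg ha hb).le (mul_self_nonneg r3)
    have := mul_self_nonneg r0
    nlinarith
  exact lt_of_le_of_ne h8 (Ne.symm h5)

end nf

end Vale.Agent.P011.E6I
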