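import Vale.Agent.P011.E6I.Defs

/-!
The projection of a matrix of degree three to the commutative algebra generated by a matrix of
trace zero, and the discriminant form.
-/

namespace Vale.Agent.P011.E6I

open Matrix

variable {K : Type} [Field K]

/-- The matrix `z` (of trace zero) satisfies `z³ + pz z + qz = 0`. -/
def pz (z : Matrix (Fin 3) (Fin 3) K) : K := -(z * z).trace / 2

/-- The matrix `z` (of trace zero) satisfies `z³ + pz z + qz = 0`. -/
def qz (z : Matrix (Fin 3) (Fin 3) K) : K := -z.det

/-- The discriminant of a matrix of trace zero. -/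
def dz (z : Matrix (Fin 3) (Fin 3) K) : K := -4 * pz z ^ 3 - 27 * qz z ^ 2

/-- The discriminant times the orthogonal projection of `y` to the algebra generated by `z`
(for `z` of trace zero). -/
def prj (z y : Matrix (Fin 3) (Fin 3) K) : Matrix (Fin 3) (Fin 3) K :=
  ((-4 * pz z ^ 3 - 9 * qz z ^ 2) * y.trace + 6 * pz z * qz z * (y * z).trace -
      4 * pz z ^ 2 * (y * (z * z)).trace) • (1 : Matrix (Fin 3) (Fin 3) K) +
    (6 * pz z * qz z * y.trace + 2 * pz z ^ 2 * (y * z).trace +
      9 * qz z * (y * (z * z)).trace) • z +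
    (-4 * pz z ^ 2 * y.trace + 9 * qz z * (y * z).trace - 6 * pz z * (y * (z * z)).trace) • (z * z)

/-- The element `f = x² r`, where `x` is the projection of `g⁻¹ - r⁻¹ g` (and `g`, `r` have
determinant one). -/
def fz (z g r : Matrix (Fin 3) (Fin 3) K) : Matrix (Fin 3) (Fin 3) K :=
  prj z (g.adjugate - r.adjugate * g) * prj z (g.adjugate - r.adjugate * g) * r

/-- The sign of this scalar is the sign of the square of the pure quaternion attached to `f`. -/
def cc (z g r : Matrix (Fin 3) (Fin 3) K) : K :=
  dz z * (2 * (fz z g r * fz z g r).trace - (fz z g r).trace ^ 2)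

theorem prj_comm (z y : Matrix (Fin 3) (Fin 3) K) : prj z y * z = z * prj z y := by
  simp only [prj, Matrix.add_mul, Matrix.mul_add, Matrix.smul_mul, Matrix.mul_smul, Matrix.one_mul,
    Matrix.mul_one, Matrix.mul_assoc]

section basic

variable [CharZero K] {z : Matrix (Fin 3) (Fin 3) K}

theorem z_cube (h : z.trace = 0) :
    z * z * z = -(pz z • z) - qz z • (1 : Matrix (Fin 3) (Fin 3) K) := by
  have h2 : z 2 2 = -z 0 0 - z 1 1 := by
    rw [Matrix.trace_fin_three] at h
    linear_combination h
  ext i j
  fin_cases i <;> fin_cases j <;>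
    simp [pz, qz, Matrix.mul_apply, Fin.sum_univ_three, Matrix.trace_fin_three,
      Matrix.det_fin_three, h2] <;> ring

theorem trace_zz (_h : z.trace = 0) : (z * z).trace = -2 * pz z := by
  rw [pz]; ring

theorem trace_zzz (h : z.trace = 0) : (z * z * z).trace = -3 * qz z := by
  rw [z_cube h, Matrix.trace_sub, Matrix.trace_neg, Matrix.trace_smul, Matrix.trace_smul, h,
    Matrix.trace_one]
  simp
  ring

theorem trace_zzzz (h : z.trace = 0) : (z * z * (z * z)).trace = 2 * pz z ^ 2 := by
  rw [← Matrix.mul_assoc, z_cube h, Matrix.sub_mul, Matrix.neg_mul, Matrix.smul_mul,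
    Matrix.smul_mul, Matrix.one_mul, Matrix.trace_sub, Matrix.trace_neg, Matrix.trace_smul,
    Matrix.trace_smul, h, trace_zz h]
  simp
  ring

theorem trace_prj (h : z.trace = 0) (y : Matrix (Fin 3) (Fin 3) K) :
    (prj z y).trace = dz z * y.trace := by
  rw [prj, Matrix.trace_add, Matrix.trace_add, Matrix.trace_smul, Matrix.trace_smul,
    Matrix.trace_smul, h, trace_zz h, Matrix.trace_one, dz]
  simp
  ring

theorem trace_prj_z (h : z.trace = 0) (y : Matrix (Fin 3) (Fin 3) K) :
    (prj z y * z).trace = dz z * (y * z).trace := by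
  rw [prj, Matrix.add_mul, Matrix.add_mul, Matrix.smul_mul, Matrix.smul_mul, Matrix.smul_mul,
    Matrix.one_mul, Matrix.trace_add, Matrix.trace_add, Matrix.trace_smul, Matrix.trace_smul,
    Matrix.trace_smul, h, trace_zz h, trace_zzz h, dz]
  simp
  ring

theorem trace_prj_zz (h : z.trace = 0) (y : Matrix (Fin 3) (Fin 3) K) :
    (prj z y * (z * z)).trace = dz z * (y * (z * z)).trace := by
  rw [prj, Matrix.add_mul, Matrix.add_mul, Matrix.smul_mul, Matrix.smul_mul, Matrix.smul_mul,
    Matrix.one_mul, Matrix.trace_add, Matrix.trace_add, Matrix.trace_smul, Matrix.trace_smul,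
    Matrix.trace_smul, trace_zz h, ← Matrix.mul_assoc z z z, trace_zzz h, trace_zzzz h, dz]
  simp
  ring

end basic

end Vale.Agent.P011.E6I
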