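import Vale.Agent.P011.E6I.H64.InResD
import Vale.Agent.P011.E6I.H714.Neg

/-!
The elements of reduced norm one of the algebras `Q ⊗ F`, for the cubic subfields `F` of `D`.
-/

namespace Vale.Agent.P011.E6I

open Matrix
open Vale.Agent.P011.MPQ Vale.Agent.P011.D4 Vale.Agent.P011.D4.Oct Vale.Agent.P011.E6

section qf

variable {k L : Type} [Field k] [NumberField k] [Field L] [NumberField L] [Algebra k L]
  {ρ : L ≃ₐ[k] L} {lam : kˣ} {a b c : kˣ}

/-- The parameters of an element of trace zero of `D`. -/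
theorem exists_Gn (H : Hyp ρ lam a b c) {z : Matrix (Fin 3) (Fin 3) L} (hz : InD0 ρ lam z)
    (h0 : z.trace = 0) : ∃ p q : k, Gn z p q ∧ pz z = -algebraMap k L p ∧
      qz z = -algebraMap k L q ∧ dz z = algebraMap k L (dsC p q) := by
  obtain ⟨p', hp'⟩ := H.fix (D0_trace (D0_mul hz hz))
  obtain ⟨q, hq⟩ := H.fix (D0_det hz)
  have hp : pz z = -algebraMap k L (p' / 2) := by
    rw [pz, ← hp', map_div₀, map_ofNat]
    ring
  have hqz : qz z = -algebraMap k L q := by rw [qz, hq]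
  refine ⟨p' / 2, q, ⟨h0, ?_, hq.symm⟩, hp, hqz, ?_⟩
  · rw [← hp']
    congr 1
    ring
  · rw [dz, hp, hqz, dsC]
    simp only [map_sub, map_mul, map_pow, map_ofNat]
    ring

/-- The projection of an element of `D` has coefficients in the ground field. -/
theorem exists_prj_k (H : Hyp ρ lam a b c) {z y : Matrix (Fin 3) (Fin 3) L}
    (hz : InD0 ρ lam z) (hy : InD0 ρ lam y) {p q : k} (hp : pz z = -algebraMap k L p)
    (hq : qz z = -algebraMap k L q) : ∃ X : Fin 3 → k, prj z y = ev z X := by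
  obtain ⟨y0, hy0⟩ := H.fix (D0_trace hy)
  obtain ⟨y1, hy1⟩ := H.fix (D0_trace (D0_mul hy hz))
  obtain ⟨y2, hy2⟩ := H.fix (D0_trace (D0_mul hy (D0_mul hz hz)))
  refine ⟨![(-4 * (-p) ^ 3 - 9 * (-q) ^ 2) * y0 + 6 * (-p) * (-q) * y1 - 4 * (-p) ^ 2 * y2,
    6 * (-p) * (-q) * y0 + 2 * (-p) ^ 2 * y1 + 9 * (-q) * y2,
    -4 * (-p) ^ 2 * y0 + 9 * (-q) * y1 - 6 * (-p) * y2], ?_⟩
  rw [prj, ev, ← hy0, ← hy1, ← hy2, hp, hq]
  simp only [Matrix.cons_val_zero, Matrix.cons_val_one, Matrix.cons_val]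
  rw [← algebraMap_smul L (((-4 * (-p) ^ 3 - 9 * (-q) ^ 2) * y0 + 6 * (-p) * (-q) * y1 -
      4 * (-p) ^ 2 * y2)) (1 : Matrix (Fin 3) (Fin 3) L),
    ← algebraMap_smul L (6 * (-p) * (-q) * y0 + 2 * (-p) ^ 2 * y1 + 9 * (-q) * y2) z,
    ← algebraMap_smul L (-4 * (-p) ^ 2 * y0 + 9 * (-q) * y1 - 6 * (-p) * y2) (z * z)]
  simp only [map_sub, map_add, map_mul, map_neg, map_pow, map_ofNat]

/-- The elements of `D` which commute with `z`. -/
theorem exists_ev (H : Hyp ρ lam a b c) {z y : Matrix (Fin 3) (Fin 3) L}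
    (hz : InD0 ρ lam z) (h0 : z.trace = 0) (hd : dz z ≠ 0) (hy : InD0 ρ lam y)
    (hyz : y * z = z * y) {p q : k} (hp : pz z = -algebraMap k L p)
    (hq : qz z = -algebraMap k L q) (hds : dz z = algebraMap k L (dsC p q)) :
    ∃ x : Fin 3 → k, y = ev z x := by
  obtain ⟨X, hX⟩ := exists_prj_k H hz hy hp hq
  have h := eq_prj h0 hd hyz
  have hD : dsC p q ≠ 0 := by
    intro h1
    apply hd
    rw [hds, h1, map_zero]
  refine ⟨(dsC p q)⁻¹ • X, ?_⟩
  rw [ev_smul, ← hX, ← h, hds, algebraMap_smul, smul_smul, inv_mul_cancel₀ hD, one_smul]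

omit [NumberField k] in
/-- The trace form and the projection. -/
theorem trace_prj_ev {z : Matrix (Fin 3) (Fin 3) L} (h0 : z.trace = 0)
    (y : Matrix (Fin 3) (Fin 3) L) (x : Fin 3 → k) :
    (prj z y * ev z x).trace = dz z * (y * ev z x).trace := by
  have h1 : ∀ (s : k) (m : Matrix (Fin 3) (Fin 3) L), (s • m).trace = algebraMap k L s * m.trace := by
    intro s m
    rw [Matrix.trace_smul, Algebra.smul_def]
  simp only [ev, Matrix.mul_add, Matrix.trace_add, Matrix.mul_smul, h1, Matrix.mul_one,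
    trace_prj h0, trace_prj_z h0, trace_prj_zz h0]
  ring

omit [NumberField k] in
theorem tripA_ofF {a' b' c' : kˣ} {i j l : Oct a b c} (ht : Trip a' b' c' i j l)
    (S : Matrix (Fin 3) (Fin 3) L) :
    tripA L ht (Alb.ofF S : AlbL L a' b' c') = (Alb.ofF S : AlbL L a b c) := by
  have h1 : ∀ t : L, emb (oup L i) (oup L j) (oup L l) (t • (1 : OctL L a' b' c')) =
      t • (1 : OctL L a b c) := by
    intro t
    rw [← tripO_apply ht, map_smul, hom_one (tripO_mul ht)]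
  rw [tripA_apply]
  simp only [Alb.omapA, Alb.ofF, h1]

/-- The case of an element of trace zero. -/
theorem inRes_QF_zero (H : Hyp ρ lam a b c) {z : Matrix (Fin 3) (Fin 3) L}
    (hz : InD0 ρ lam z) (h0 : z.trace = 0)
    (hzk : ∀ t : L, z ≠ t • (1 : Matrix (Fin 3) (Fin 3) L)) {q : (MQ L a b)ˣ}
    (hq : InD ρ lam (q : MQ L a b)) (hqz : (q : MQ L a b) * toMQ z = toMQ z * (q : MQ L a b))
    (hn : nu (q : MQ L a b) = 1) : InRes ρ lam c q := by
  have hd := dz_ne_zero H hz h0 hzk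
  have hnq := nu_eq_det (a := up L a) (b := up L b) (m := (q : MQ L a b)) H.aniso h0 hd hqz
  obtain ⟨R, hRdef⟩ : ∃ R, R = nq (q : MQ L a b) := ⟨_, rfl⟩
  have hR : InD0 ρ lam R := by rw [hRdef]; exact nq_inD0 h0 hd hq hqz
  have hRz : R * z = z * R := by rw [hRdef]; exact nq_comm hqz
  have hdR : R.det = 1 := by rw [hRdef, ← hnq, hn]
  have hpos : ∀ w : L →+* ℝ, Dfn (w.comp (algebraMap k L)) a b c → ∀ (v : Fin 3 → ℝ) (t s : ℝ),
      v ≠ 0 → (z.map w).mulVec v = t • v → (R.map w).mulVec v = s • v → 0 < s := by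
    intro w hw v t s hv h1 h2
    rw [hRdef] at h2
    exact nq_pos h0 hd hqz (by rw [← hRdef, hdR]; exact one_ne_zero) w hw.1 hw.2.1 hv h1 h2
  obtain ⟨g, hg, hdg, hneg⟩ := exists_neg H hz h0 hd hR hRz hdR hpos
  obtain ⟨p, q', hB, hp, hq', hds⟩ := exists_Gn H hz h0
  have hD : dsC p q' ≠ 0 := by
    intro h1
    apply hd
    rw [hds, h1, map_zero]
  obtain ⟨r, hr⟩ := exists_ev H hz h0 hd hR hRz hp hq' hds
  obtain ⟨X, hX⟩ := exists_prj_k H hz (D0_sub (D0_adj hg) (D0_mul (D0_adj hR) hg)) hp hq'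
  have hr1 : nmC p q' r = 1 := by
    apply (algebraMap k L).injective
    rw [← hB.det_ev, ← hr, hdR, map_one]
  have hfz : fz z g R = ev z (mulC p q' (mulC p q' X X) r) := by
    rw [fz, hX, ← ev_mul hB.cube, ← ev_mul hB.cube, ← hr]
  have hcc : cc z g R = algebraMap k L (Cc p q' (mulC p q' (mulC p q' X X) r)) := by
    rw [cc, hfz, ev_mul hB.cube, hB.trace_ev, hB.trace_ev, hds, Cc]
    simp only [map_sub, map_mul, map_pow, map_ofNat]
  have hnegC : ∀ τ : k →+* ℝ, Dfn τ a b c →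
      τ (Cc p q' (mulC p q' (mulC p q' X X) r)) < 0 := by
    intro τ hτ
    obtain ⟨w, hw, h1⟩ := hneg τ hτ
    rw [hcc] at h1
    rw [← hw]
    exact h1
  obtain ⟨φ₀, hφ₀⟩ := exists_dfn H.hdiv
  have hC0 : Cc p q' (mulC p q' (mulC p q' X X) r) ≠ 0 := by
    intro h
    have := hnegC φ₀ hφ₀
    rw [h, map_zero] at this
    exact lt_irrefl _ this
  have hXn : nmC p q' X ≠ 0 := by
    intro h
    have e1 := hB.det_ev X
    rw [h, map_zero] at e1
    have e2 : ev z X = 0 := by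
      by_contra hne
      exact det_ne_zero_D0 H (inD0_ev hz X) hne e1
    apply hC0
    apply (algebraMap k L).injective
    rw [← hcc, map_zero, cc, fz, hX, e2]
    simp
  have ht : ∀ y : Fin 3 → k, trace (ev z X * ev z y) =
      algebraMap k L (dsC p q') * trace ((g.adjugate - (ev z r).adjugate * g) * ev z y) := by
    intro y
    rw [← hX, trace_prj_ev h0, hds, ← hr]
  obtain ⟨b', c', i, j, l, htr⟩ := exists_trip_sq H.hdiv (Units.mk0 _ hC0) hnegC
  have H' := H.trip htr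
  obtain ⟨w, hwdef⟩ : ∃ w : Qt (Units.mk0 _ hC0) b', w = ⟨0, 1, 0, 0⟩ := ⟨_, rfl⟩
  have hw : w.re = 0 := by rw [hwdef]
  have hw0 : w ≠ 0 := by
    intro h
    have := congrArg QuaternionAlgebra.imI h
    rw [hwdef] at this
    exact one_ne_zero this
  have hw2 : w * w = Cc p q' (mulC p q' (mulC p q' X X) r) • (1 : Qt _ b') := by
    rw [hwdef]
    exact i_sq _ _
  obtain ⟨P, P', q1, gU, hq1, hgU, hPR, hnu, hD1, hnu1, hres⟩ :=
    exists_q1 H' hB hz hg hdg hr1 hXn hD ht hD hw hw0 hw2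
  have hwn := nrd_pure hw2 hw
  have hq1D : InD ρ lam (q1 : MQ L (Units.mk0 _ hC0) b') := by
    rw [hq1]
    exact (fw_mem hz P P' w).1
  have hq1z : (q1 : MQ L (Units.mk0 _ hC0) b') * toMQ z = toMQ z * (q1 : MQ L (Units.mk0 _ hC0) b') := by
    rw [hq1]
    exact fw_comm P P' w rfl
  have hgD : InD ρ lam (gU : MQ L (Units.mk0 _ hC0) b') := by
    rw [hgU]
    exact InD0_toMQ.2 hg
  have hgn : nu (gU : MQ L (Units.mk0 _ hC0) b') = 1 := by
    rw [hgU, show (toMQ g : MQ L (Units.mk0 _ hC0) b') = tm _ _ g from rfl, nu_tm, hdg, one_pow]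
  -- the element `q1` belongs to the residual in the new coordinates
  have hres1 : InRes ρ lam c' q1 := by
    have h1 := InRes.mul H' (InD.inv H' hD1) (by
      have e := congrArg nu (Units.inv_mul (gU * q1⁻¹))
      rw [nu_mul H'.aniso, hnu1, mul_one, E6.nu_one] at e
      exact e) hgD hgn (InRes.inv H' hD1 hnu1 hres) (inRes_D_one H' hg hdg hgU)
    have h2 : (gU * q1⁻¹)⁻¹ * gU = q1 := by group
    rwa [h2] at h1
  obtain ⟨ψ, -, hψ⟩ := exists_actI H' hq1D hnu
  have hψR := (trip_Res (ρ := ρ) (lam := lam) htr (tripA_apply (K := L) htr) (φ := ψ)).2.1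
    (hres1 ψ hψ)
  obtain ⟨ψ', hψ'⟩ : ∃ ψ', ψ' = ((tripA L htr).symm.trans ψ).trans (tripA L htr) := ⟨_, rfl⟩
  rw [← hψ'] at hψR
  intro φ hφ
  obtain ⟨φ', hφ'G, hφ'⟩ := exists_actI H hq hn
  have hφφ : φ = φ' := by
    apply LinearEquiv.ext
    intro x
    rw [hφ, hφ']
  rw [← hφφ] at hφ'G
  have hmain : φ * ψ'⁻¹ ∈ Res ρ lam a b c := by
    apply fix H hz hzk (mul_mem hφ'G (inv_mem (Res_le hψR)))
    intro S hS hzS
    -- the symmetric matrix `R⁻¹ S`
    have hRR : R * R.adjugate = 1 := by rw [Matrix.mul_adjugate, hdR, one_smul]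
    have hRR' : R.adjugate * R = 1 := by rw [Matrix.adjugate_mul, hdR, one_smul]
    have hAz : R.adjugate * z = z * R.adjugate := by
      calc R.adjugate * z = R.adjugate * (z * R) * R.adjugate := by
            rw [Matrix.mul_assoc R.adjugate, Matrix.mul_assoc z, hRR, Matrix.mul_one]
        _ = R.adjugate * R * z * R.adjugate := by
            rw [← hRz, ← Matrix.mul_assoc]
        _ = z * R.adjugate := by rw [hRR', Matrix.one_mul]
    obtain ⟨S', hS'⟩ : ∃ S', S' = R.adjugate * S := ⟨_, rfl⟩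
    have hS's : S'ᵀ = S' := by
      rw [hS', Matrix.transpose_mul, hS, comm_sym h0 hd hAz hzS]
    have hS'z : z * S' = S' * zᵀ := by
      rw [hS', ← Matrix.mul_assoc, ← hAz, Matrix.mul_assoc, hzS, Matrix.mul_assoc]
    have hRS : R * S' = S := by rw [hS', ← Matrix.mul_assoc, hRR, Matrix.one_mul]
    have e1 : φ (Alb.ofF S') = Alb.ofF S := by
      rw [hφ, act_ofF h0 hd hqz hS's hS'z, ← hRdef, hRS]
    have e2 : ψ (Alb.ofF S') = Alb.ofF S := by
      rw [hψ, act_ofF h0 hd hq1z hS's hS'z]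
      congr 1
      have e3 := mul_S_ct h0 hd hq1z hS'z
      have e4 := fw_act hB.cube hw hwn P P' hS'z
      rw [hPR, ← hr, hRS] at e4
      rw [hq1] at e3
      rw [hq1]
      exact tm_inj (e3.symm.trans e4)
    have e3 : ψ' (Alb.ofF S') = Alb.ofF S := by
      rw [hψ']
      change tripA L htr (ψ ((tripA L htr).symm (Alb.ofF S'))) = _
      rw [← tripA_ofF htr S', LinearEquiv.symm_apply_apply, e2, tripA_ofF]
    have e4 : ψ'⁻¹ (Alb.ofF S) = Alb.ofF S' := by
      rw [← e3, ← LinearEquiv.mul_apply, inv_mul_cancel]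
      rfl
    rw [LinearEquiv.mul_apply, e4, e1]
  have h1 := mul_mem hmain hψR
  rwa [inv_mul_cancel_right] at h1

/-- **Row (b')**: the special linear groups of the quaternion algebras over the cubic subfields
of `D`. -/
theorem inRes_QF (H : Hyp ρ lam a b c) {z : Matrix (Fin 3) (Fin 3) L} (hz : InD0 ρ lam z)
    (hzk : ∀ t : L, z ≠ t • (1 : Matrix (Fin 3) (Fin 3) L)) {q : (MQ L a b)ˣ}
    (hq : InD ρ lam (q : MQ L a b)) (hqz : (q : MQ L a b) * toMQ z = toMQ z * (q : MQ L a b))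
    (hn : nu (q : MQ L a b) = 1) : InRes ρ lam c q := by
  have hs : ρ (z.trace / 3) = z.trace / 3 := by
    rw [map_div₀, D0_trace hz, map_ofNat]
  obtain ⟨z', hz'⟩ : ∃ z', z' = z - (z.trace / 3) • (1 : Matrix (Fin 3) (Fin 3) L) := ⟨_, rfl⟩
  have hz'D : InD0 ρ lam z' := by
    rw [hz']
    exact D0_sub hz (D0_smul hs D0_one)
  have h0 : z'.trace = 0 := by
    rw [hz', Matrix.trace_sub, Matrix.trace_smul, Matrix.trace_one]
    simp
  have hz'k : ∀ t : L, z' ≠ t • (1 : Matrix (Fin 3) (Fin 3) L) := by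
    intro t ht
    apply hzk (t + z.trace / 3)
    rw [hz', sub_eq_iff_eq_add] at ht
    rw [add_smul, ← ht]
  have hqz' : (q : MQ L a b) * toMQ z' = toMQ z' * (q : MQ L a b) := by
    apply co_ext
    intro i
    change co i ((q : MQ L a b) * tm _ _ z') = co i (tm _ _ z' * (q : MQ L a b))
    rw [co_mul_tm, co_tm_mul, hz', Matrix.mul_sub, Matrix.sub_mul, Matrix.mul_smul,
      Matrix.smul_mul, Matrix.mul_one, Matrix.one_mul]
    congr 1
    exact co_comm hqz i
  exact inRes_QF_zero H hz'D h0 hz'k hq hqz' hn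

end qf

end Vale.Agent.P011.E6I
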